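import Crest.Agent.X212.Pb50.Nk
import Crest.Agent.X212.Sob92.Fun

-- ▼ part X212/Pb50/Hi
section

/-!
# Row 212, SW-PB (helper50): functions with all derivatives in `L²` along an end
-/

set_option autoImplicit false
set_option linter.unusedSectionVars false
noncomputable section
open scoped Manifold ContDiff Topology InnerProductSpace
open MeasureTheory Set Function Filter

namespace Crest.Agent.X212.Pb50
open An Sw Sob92 Cyf70
open Wz78 (SA)
open M (pm)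

variable {N N' N'' : Type} [NormedAddCommGroup N] [NormedSpace ℝ N] [NormedAddCommGroup N']
  [NormedSpace ℝ N'] [NormedAddCommGroup N''] [NormedSpace ℝ N''] {ι : Type} [Fintype ι]

section gen
variable {E : Type} [NormedAddCommGroup E] [NormedSpace ℝ E] [FiniteDimensional ℝ E]
  [MeasurableSpace E] [BorelSpace E]
  {HM : Type} [TopologicalSpace HM] {I : ModelWithCorners ℝ E HM}
  {M : Type} [TopologicalSpace M] [ChartedSpace HM M] [IsManifold I ∞ M] [MeasurableSpace M]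
  [T2Space M] [BorelSpace M] [SecondCountableTopology M] {F : Pre I M ι} {f g : M → N}
  {O O' : Set M} {x : M}

theorem Dw_congr (w : List ι) : ∀ {f g : M → N}, f =ᶠ[𝓝 x] g → F.Dw w f =ᶠ[𝓝 x] F.Dw w g := by
  induction w with
  | nil => exact id
  | cons a w ih => exact fun h => ih (h.eventuallyEq_nhds.mono fun y hy => dv_congr hy)

theorem Cb_of_bdd (hf : Sm I f) (h : ∀ w, ∃ C, ∀ x, ‖F.Dw w f x‖ ≤ C) : F.Cb f := by
  have : ∀ (k : ℕ) (f : M → N), (∀ w, ∃ C, ∀ x, ‖F.Dw w f x‖ ≤ C) → ∃ C, F.CB k f C := by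
    intro k
    induction k with
    | zero => exact fun f h => (h []).imp fun C hC => CB_zero.2 hC
    | succ k ih =>
      intro f h
      obtain ⟨C₀, h0⟩ := h []
      choose C hC using fun a => ih (F.D a f) fun w => h (a :: w)
      obtain ⟨B, hB⟩ := Finite.exists_le C
      exact ⟨max C₀ B, CB_succ.2 ⟨fun x => (h0 x).trans (le_max_left _ _),
        fun a => CB_mono (hC a) ((hB a).trans (le_max_right _ _))⟩⟩
  choose C hC using fun k => this k f h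
  exact ⟨C, hf, hC⟩

theorem hh_mono (h : Hh F O f) (hO : O' ⊆ O) : Hh F O' f := fun w => (h w).mono_set hO

theorem hh_congr (h : Hh F O f) (hO : IsOpen O) (e : EqOn f g O) : Hh F O g := fun w =>
  (h w).congr_fun (fun x hx => by
    simp only [(Dw_congr (F := F) w (e.eventuallyEq_of_mem (hO.mem_nhds hx))).self_of_nhds])
    hO.measurableSet

theorem hh_iff (hf : Sm I f) : Hh F O f ↔ ∀ k, FS F O k f := by
  have h0 : ∀ {f : M → N}, Sm I f → IntegrableOn (fun x => ‖f x‖ ^ 2) O F.μ →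
      MemLp f 2 (F.μ.restrict O) := fun hf h =>
    (memLp_two_iff_integrable_sq_norm hf.continuous.aestronglyMeasurable).2 h
  refine ⟨fun h k => ?_, fun h w => ?_⟩
  · induction k generalizing f with
    | zero => exact h0 hf (h [])
    | succ k ih => exact ⟨h0 hf (h []), fun a => ih (F.sm_D hf a) fun w => h (a :: w)⟩
  · induction w generalizing f with
    | nil => exact int_sq (h 0)
    | cons a w ih => exact ih (F.sm_D hf a) fun k => (h (k + 1)).2 a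

variable (F) in
/-- smooth, all derivatives square integrable -/
def Hi (g : M → N) : Prop := Sm I g ∧ ∀ k, FL F k g

theorem Hi.hh (h : Hi F g) (O : Set M) : Hh F O g := (hh_iff h.1).2 fun k => FL_FS (h.2 k) O

theorem Hi.zero : Hi F (0 : M → N) :=
  ⟨contMDiff_const, fun k => FL_of_hcs k contMDiff_const HasCompactSupport.zero⟩

theorem Hi.add (h : Hi F f) (h' : Hi F g) : Hi F (f + g) :=
  ⟨h.1.add h'.1, fun k => ML.add F.sm h.1 h'.1 (h.2 k) (h'.2 k)⟩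

theorem Hi.clm (L : N →L[ℝ] N') (h : Hi F f) : Hi F fun x => L (f x) :=
  ⟨L.contMDiff.comp h.1, fun k => ML.clm F.sm L h.1 (h.2 k)⟩

theorem Hi.bil (B : N →L[ℝ] N' →L[ℝ] N'') {u : M → N'} (hf : F.Cb f) (h : Hi F u) :
    Hi F fun x => B (f x) (u x) :=
  let ⟨_, hC⟩ := hf
  ⟨smooth_bil B hC.1 h.1, fun k => (N2_mul B hC.1 h.1 (hC.2 k) (h.2 k)).1⟩

theorem Hi.D (h : Hi F f) (a : ι) : Hi F (F.D a f) := ⟨F.sm_D h.1 a, fun k => (h.2 (k + 1)).2 a⟩

theorem Hi.Dw (w : List ι) : ∀ {f : M → N}, Hi F f → Hi F (F.Dw w f) := by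
  induction w with
  | nil => exact id
  | cons a w ih => exact fun h => ih (h.D a)

/-- Sobolev -/
theorem Hi.cb {F : Fr I M ι} {C : ℕ → ℝ} (hT : F.Tame C) (h : Hi F.toPre f) : F.Cb f := by
  refine Cb_of_bdd h.1 fun w => ?_
  have h1 := h.Dw w
  generalize F.Dw w f = g at h1
  refine ⟨√(|C 0| * ((cK ι 4 * ‖ContinuousLinearMap.lsmul ℝ ℝ (E := N)‖ * C 4) ^ 2 *
    N2 F.toPre 4 g)), fun x => Real.le_sqrt_of_sq_le ?_⟩
  obtain ⟨χ, h2, h3, -, h4⟩ := hT.exh {x} isCompact_singleton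
  have h5 := (Sup.of_tame hT).sq_le (u := fun y => χ y • g y) (h2.1.smul h1.1)
    (hcs_bil_left (ContinuousLinearMap.lsmul ℝ ℝ) g h3) x
  rw [h4 x rfl, one_smul] at h5
  exact h5.trans (mul_le_mul_of_nonneg_left
    (N2_mul (ContinuousLinearMap.lsmul ℝ ℝ) h2.1 h1.1 (h2.2 4) (h1.2 4)).2 (abs_nonneg _))

end gen

section cyl
variable {E : Type} [NormedAddCommGroup E] [NormedSpace ℝ E] [FiniteDimensional ℝ E]
  [MeasurableSpace E] [BorelSpace E]
  {HM : Type} [TopologicalSpace HM] {I : ModelWithCorners ℝ E HM} [I.Boundaryless]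
  {Y : Type} [TopologicalSpace Y] [ChartedSpace HM Y] [IsManifold I ∞ Y] [MeasurableSpace Y]
  [T2Space Y] [BorelSpace Y] [SecondCountableTopology Y] [CompactSpace Y] {F : Pre I Y ι}
  {f g : Y × ℝ → N} {s : Bool} {J : Set ℝ}

variable (Y) in
/-- the end `s` of the cylinder -/
def nd (s : Bool) : Filter (Y × ℝ) := comap (fun x => pm s * x.2) atTop

theorem nd_basis : (nd Y s).HasBasis (fun _ => True) fun T => {x | T < pm s * x.2} :=
  atTop_basis_Ioi.comap _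

theorem isOpen_nd (T : ℝ) : IsOpen {x : Y × ℝ | T < pm s * x.2} :=
  isOpen_lt continuous_const (by fun_prop)

theorem nd_nhds {p : Y × ℝ → Prop} (h : ∀ᶠ x in nd Y s, p x) : ∀ᶠ x in nd Y s, ∀ᶠ y in 𝓝 x, p y := by
  obtain ⟨T, -, hT⟩ := nd_basis.eventually_iff.1 h
  exact nd_basis.eventually_iff.2 ⟨T, trivial, fun x hx =>
    ((isOpen_nd T).eventually_mem hx).mono fun y hy => hT hy⟩

theorem cb_st (T : ℝ) : (cylP F).Cb fun x => Real.smoothTransition (pm s * x.2 - T) := by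
  obtain ⟨C, hC⟩ := Nd18.bd_st
  cases s
  · exact ⟨C, by simpa [pm, sub_eq_neg_add, add_comm] using (hC.refl (-T)).cyl F⟩
  · exact ⟨C, by simpa [pm, sub_eq_add_neg] using (hC.shift (-T)).cyl F⟩

variable (F s) in
/-- equal to a function of class `Hi` near the end -/
def Gl (f : Y × ℝ → N) : Prop := ∃ g, Hi (cylP F) g ∧ f =ᶠ[nd Y s] g

variable (F s) in
/-- equal to a function of class `Cb` near the end -/
def Gb (f : Y × ℝ → N) : Prop := ∃ g, (cylP F).Cb g ∧ f =ᶠ[nd Y s] g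

theorem Gl.hh (h : Gl F s f) (hJ : IsOpen J) :
    ∃ T, Hh (cylP F) (univ ×ˢ (J ∩ {t | T < pm s * t})) f := by
  obtain ⟨g, hg, h⟩ := h
  obtain ⟨T, -, hT⟩ := nd_basis.eventually_iff.1 h
  exact ⟨T, hh_congr (hg.hh _) (isOpen_univ.prod (hJ.inter (isOpen_lt continuous_const
    (by fun_prop)))) fun x hx => (hT hx.2.2).symm⟩

theorem gl_of_hh (hJ : ∀ᶠ x in nd Y s, x.2 ∈ J) (hf : ∀ x, x.2 ∈ J → SA (IC I) f x) {T : ℝ}
    (h : Hh (cylP F) (univ ×ˢ (J ∩ {t | T < pm s * t})) f) : Gl F s f := by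
  obtain ⟨T₁, -, h1⟩ := nd_basis.eventually_iff.1 (hJ.and (nd_basis.mem_of_mem (i := T) trivial))
  let β : ℝ → Y × ℝ → ℝ := fun T x => Real.smoothTransition (pm s * x.2 - T)
  have β0 : ∀ T x, pm s * x.2 ≤ T → β T x = 0 := fun T x hx =>
    Real.smoothTransition.zero_of_nonpos (by linarith)
  have β1 : ∀ T x, T + 1 < pm s * x.2 → β T x = 1 := fun T x hx =>
    Real.smoothTransition.one_of_one_le (by linarith)
  have sβ : ∀ T, Sm (IC I) (β T) := fun T => (cb_st (F := F) T).choose_spec.1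
  have s0 : Sm (IC I) fun x => β (T₁ + 1) x • f x := fun x => by
    by_cases hx : T₁ < pm s * x.2
    · exact (sβ _ x).smul (hf x (h1 hx).1)
    · refine (contMDiffAt_const (c := (0 : N))).congr_of_eventuallyEq ?_
      filter_upwards [(isOpen_lt (f := fun x : Y × ℝ => pm s * x.2) (by fun_prop)
        (continuous_const (y := T₁ + 1))).mem_nhds (show pm s * x.2 < T₁ + 1 by linarith)] with y hy
      rw [β0 _ y (le_of_lt hy), zero_smul]
  have h2 : Hh (cylP F) {x | T₁ + 2 < pm s * x.2} fun x => β (T₁ + 1) x • f x :=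
    hh_congr (hh_mono h fun x hx => ⟨trivial, h1 (show T₁ < _ by linarith [mem_ofPred.1 hx])⟩)
      (isOpen_nd _) fun x hx => by
        simp only [β1 (T₁ + 1) x (by linarith [mem_ofPred.1 hx]), one_smul]
  obtain ⟨C, hC⟩ := cb_st (F := F) (s := s) (T₁ + 3)
  refine ⟨fun x => β (T₁ + 3) x • β (T₁ + 1) x • f x, ⟨(sβ _).smul s0, fun k =>
    FL_of_FS (isOpen_nd (T₁ + 2)).measurableSet k ?_
      (NS_smul hC.1 s0 (hC.2 k) ((hh_iff s0).1 h2 k)).1⟩,
    nd_basis.eventually_iff.2 ⟨T₁ + 4, trivial, fun x hx => ?_⟩⟩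
  · refine (closure_minimal (t := {x | T₁ + 3 ≤ pm s * x.2})
      (fun x hx => mem_ofPred.2 (le_of_not_gt fun h => ?_))
      (isClosed_le continuous_const (by fun_prop))).trans fun x hx => ?_
    · exact mem_support.1 hx (by simp only [β0 _ x h.le, zero_smul])
    · exact show T₁ + 2 < _ by linarith [mem_ofPred.1 hx]
  · have := mem_ofPred.1 hx
    simp only [β1 (T₁ + 3) x (by linarith), β1 (T₁ + 1) x (by linarith), one_smul]

theorem Gl.congr (h : Gl F s f) (e : g =ᶠ[nd Y s] f) : Gl F s g :=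
  h.imp fun _ h => ⟨h.1, e.trans h.2⟩

theorem Gb.congr (h : Gb F s f) (e : g =ᶠ[nd Y s] f) : Gb F s g :=
  h.imp fun _ h => ⟨h.1, e.trans h.2⟩

theorem Gl.add (h : Gl F s f) (h' : Gl F s g) : Gl F s fun x => f x + g x :=
  let ⟨_, a, b⟩ := h; let ⟨_, c, d⟩ := h'; ⟨_, a.add c, b.add d⟩

theorem Gb.add (h : Gb F s f) (h' : Gb F s g) : Gb F s fun x => f x + g x :=
  let ⟨_, a, b⟩ := h; let ⟨_, c, d⟩ := h'; ⟨_, Cb_add a c, b.add d⟩

theorem Gl.clm (L : N →L[ℝ] N') (h : Gl F s f) : Gl F s fun x => L (f x) :=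
  let ⟨_, a, b⟩ := h; ⟨_, a.clm L, b.fun_comp L⟩

theorem Gl.bil (B : N →L[ℝ] N' →L[ℝ] N'') {u : Y × ℝ → N'} (hf : Gb F s f) (h : Gl F s u) :
    Gl F s fun x => B (f x) (u x) :=
  let ⟨_, a, b⟩ := hf; let ⟨_, c, d⟩ := h
  ⟨_, c.bil B a, (b.and d).mono fun _ hx => congrArg₂ (fun p q => B p q) hx.1 hx.2⟩

theorem Gl.D (h : Gl F s f) (a : Option ι) : Gl F s ((cylP F).D a f) :=
  let ⟨_, b, c⟩ := h; ⟨_, b.D a, (nd_nhds c).mono fun _ hx => dv_congr hx⟩

theorem gb_fst {φ : Y → N} (h : Sm I φ) : Gb F s fun x => φ x.1 :=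
  ⟨_, Cht98.Cb_fst F (Cb_of_compact h), .rfl⟩

theorem Gl.gb {F : Fr I Y ι} {C : ℕ → ℝ} (hT : (cyl F).Tame C) (h : Gl F.toPre s f) :
    Gb F.toPre s f := h.imp fun _ h => ⟨Hi.cb hT h.1, h.2⟩

theorem Gb.bdd (h : Gb F s f) (w : List (Option ι)) :
    ∃ C, ∀ᶠ x in nd Y s, ‖(cylP F).Dw w f x‖ ≤ C :=
  let ⟨_, ⟨C, a⟩, b⟩ := h
  ⟨C w.length, (nd_nhds b).mono fun x hx =>
    ((Dw_congr (F := cylP F) w hx).self_of_nhds.symm ▸ a.2 _ w le_rfl x :)⟩

end cyl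

end Crest.Agent.X212.Pb50
end
end

-- ▼ part X212/Pb50/Main

/-!
# Row 212, SW-PB (helper50): allowed gauge transformations; `PbStmt`
-/

set_option autoImplicit false
set_option linter.unusedSectionVars false
noncomputable section
open scoped Manifold ContDiff Topology InnerProductSpace
open MeasureTheory Set Function Filter

namespace Crest.Agent.X212.Pb50
open An Sw Sob92 Cyf70 Sw.En3
open Wz78 (SA)
open Nd18 (Jv isOpen_Jv)
open M (Mf pm)

variable {κ lam ν : Type} [Fintype κ] [Fintype lam] [Fintype ν] [DecidableEq ν]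
  {X : Mf 4} {nc : ℕ} {V : Type} [NormedAddCommGroup V] [NormedSpace ℝ V]

section nk
variable {e : En3 κ lam ν} {b : Bg X.I X.M κ lam ν nc} (K : Nk e b) {s : Bool}
  {c : Cfg X.M κ ν} {u u' : X.M → ℂ} {v : e.YC}

theorem ev_J (h : K.Inf s) : ∀ᶠ x in nd e.Y.M s, x.2 ∈ K.J := by
  cases s
  · have hp : K.p = none := h
    refine nd_basis.eventually_iff.2 ⟨-K.q.getD 0, trivial, fun x hx => ⟨by simp [hp], fun a ha => ?_⟩⟩
    simpa [pm, Option.mem_def.1 ha] using hx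
  · have hq : K.q = none := h
    refine nd_basis.eventually_iff.2 ⟨K.p.getD 0, trivial, fun x hx => ⟨fun a ha => ?_, by simp [hq]⟩⟩
    simpa [pm, Option.mem_def.1 ha] using hx

theorem ev_ψ (h : K.Inf s) : ∀ᶠ x in nd e.Y.M s, x ∈ K.ψ.source :=
  (ev_J K h).mono fun _ hx => K.mem_src.2 hx

theorem gl_iff (h : K.Inf s) {f : e.Y.M × ℝ → V} (hf : ∀ x ∈ K.ψ.source, SA (IC e.Y.I) f x) :
    (∃ T, Hh e.D.Z.toPre (univ ×ˢ K.far s T) f) ↔ Gl e.D.F.toPre s f :=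
  ⟨fun ⟨_, hT⟩ => gl_of_hh (ev_J K h) (fun x hx => hf x (K.mem_src.2 hx)) hT,
    fun h => h.hh isOpen_Jv⟩

theorem far_mono {T T' : ℝ} (h : T ≤ T') : (univ : Set e.Y.M) ×ˢ K.far s T' ⊆ univ ×ˢ K.far s T :=
  fun _ hx => ⟨trivial, hx.2.1, h.trans_lt hx.2.2⟩

theorem asyG_iff (h : K.Inf s) (hu : Sm X.I u) :
    K.AsyG s u ↔ Gl e.D.F.toPre s fun x => u (K.ψ x) - 1 :=
  gl_iff K h fun _ hx => (sa_ψ K hx (hu _)).sub contMDiffAt_const

theorem asy_iff (h : K.Inf s) (hc : b.Adm c) (hv : e.cyl.Adm (fz v)) : K.Asy s v c ↔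
    (∀ i, Gl e.D.F.toPre s fun x => (K.pb c).a i x - (fz v).a i x) ∧
      Gl e.D.F.toPre s fun x => (K.pb c).Φ x - v.Φ x.1 := by
  have h1 := fun i => gl_iff K h (f := fun x => (K.pb c).a i x - (fz v).a i x)
    fun x hx => (sa_ψ K hx (hc.sa i _)).sub (hv.sa i x)
  have h2 := gl_iff K h (f := fun x => (K.pb c).Φ x - v.Φ x.1)
    fun x hx => (sa_ψ K hx (hc.sΦ _)).sub (hv.sΦ x)
  refine ⟨fun ⟨T, k1, k2⟩ => ⟨fun i => (h1 i).1 ⟨T, k1 i⟩, h2.1 ⟨T, k2⟩⟩, fun ⟨k1, k2⟩ => ?_⟩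
  choose T hT using fun i => (h1 i).2 (k1 i)
  obtain ⟨T', hT'⟩ := h2.2 k2
  obtain ⟨B, hB⟩ := Finite.exists_le T
  exact ⟨max B T', fun i => hh_mono (hT i) (far_mono K ((hB i).trans (le_max_left _ _))),
    hh_mono hT' (far_mono K (le_max_right _ _))⟩

theorem gb_fz {f : e.Y.M × ℝ → V} (h : Sm (IC e.Y.I) f) (h' : ∀ x, f x = f (x.1, 0)) :
    Gb e.D.F.toPre s f := (gb_fst (sm_slice_fst h 0)).congr (.of_forall h')

theorem fz_a (v : e.YC) (i : Option κ) (x : e.Y.M × ℝ) : (fz v).a i x = (fz v).a i (x.1, 0) := by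
  cases i <;> rfl

variable (he : e.OK)
include he

theorem gb_of {f g : e.Y.M × ℝ → V} (h : Gl e.D.F.toPre s fun x => f x - g x)
    (hg : Gb e.D.F.toPre s g) : Gb e.D.F.toPre s f :=
  ((h.gb he.cyl.tame.choose_spec).add hg).congr (.of_forall fun _ => (sub_add_cancel _ _).symm)

theorem gb_u (h : K.Inf s) (hu : Sm X.I u) (g : K.AsyG s u) :
    Gb e.D.F.toPre s fun x => u (K.ψ x) :=
  gb_of he ((asyG_iff K h hu).1 g) ⟨_, Cb_const 1, .rfl⟩

theorem asyG_mul (h : K.Inf s) (hu : Sm X.I u) (hu' : Sm X.I u') (g : K.AsyG s u)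
    (g' : K.AsyG s u') : K.AsyG s fun x => u' x * u x :=
  (asyG_iff K h fun x => Wz78.SA.mul (hu' x) (hu x)).2
    (((((asyG_iff K h hu).1 g).bil (ContinuousLinearMap.mul ℝ ℂ) (gb_u K he h hu' g')).add
      ((asyG_iff K h hu').1 g')).congr (.of_forall fun x => by
        simp only [ContinuousLinearMap.mul_apply']; ring))

omit he in
theorem asyG_star (h : K.Inf s) (hu : Sm X.I u) (g : K.AsyG s u) :
    K.AsyG s fun x => star (u x) :=
  (asyG_iff K h fun x => sa_star (hu x)).2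
    ((((asyG_iff K h hu).1 g).clm (Complex.conjCLE : ℂ →L[ℝ] ℂ)).congr (.of_forall fun x => by simp))

omit he in
theorem asyG_one (h : K.Inf s) : K.AsyG s fun _ => 1 :=
  (asyG_iff K h contMDiff_const).2 ⟨0, Hi.zero, .of_forall fun _ => sub_self _⟩

theorem asy_act (hb : b.OK) (h : K.Inf s) (hc : b.Adm c) (hv : e.cyl.Adm (fz v)) (hu : Gau X.I u)
    (g : K.AsyG s u) (a : K.Asy s v c) : K.Asy s v (b.act u c) := by
  obtain ⟨a1, a2⟩ := (asy_iff K h hc hv).1 a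
  have g1 := (asyG_iff K h hu.1).1 g
  have g2 := gb_u K he h hu.1 g
  refine (asy_iff K h (adm_of fun x => (LA.of_adm hc x).act hb (hu.1 x)) hv).2 ⟨fun i => ?_, ?_⟩
  · refine ((a1 i).add (((g1.D i).bil (ContinuousLinearMap.mul ℝ ℂ ∘L (Complex.conjCLE : ℂ →L[ℝ] ℂ))
      g2).clm (-Complex.imCLM))).congr ((ev_ψ K h).mono fun x hx => ?_)
    have : (cylP e.D.F.toPre).D i (fun x => u (K.ψ x) - 1) x = b.F.D i u (K.ψ x) := by
      rw [D_ψ K hx]
      exact (Wz78.dv_sub' (sa_ψ K hx (hu.1 _)) contMDiffAt_const).trans (by simp; rfl)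
    simp only [this]
    show c.a i (K.ψ x) - th b.F.toPre u i (K.ψ x) - _ =
      c.a i (K.ψ x) - _ + -th b.F.toPre u i (K.ψ x)
    ring
  · refine ((a2.bil (cB b.m.J) g2).add (g1.bil (cB b.m.J).flip
      (gb_fz (s := s) hv.sΦ fun _ => rfl))).congr (.of_forall fun x => ?_)
    show cB b.m.J (u (K.ψ x)) (c.Φ (K.ψ x)) - v.Φ x.1 =
      cB b.m.J (u (K.ψ x)) (c.Φ (K.ψ x) - v.Φ x.1) + cB b.m.J (u (K.ψ x) - 1) (v.Φ x.1)
    rw [map_sub, map_sub, sub_apply, cB_apply _ 1, Eqv71.cs_one]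
    abel

end nk

variable {N : Type} [Fintype N] {e : N → En3 κ lam ν} {P : Pz X nc e} (hP : P.OK) {β : BCs e}
  {c : Cfg X.M κ ν} {u u' : X.M → ℂ}
include hP

/-- bounded along the infinite ends -/
theorem cb_of_ends {f : X.M → V} (hf : Sm X.I f) (h : ∀ i s, ∀ K ∈ P.nk i, K.Inf s →
    Gb (e i).D.F.toPre s fun x => f (K.ψ x)) : P.bg.F.Cb f := by
  refine Cb_of_bdd hf fun w => ?_
  have h1 : ∀ p : N × Bool, ∃ T C : ℝ, ∀ K ∈ P.nk p.1, K.Inf p.2 → ∀ x ∈ univ ×ˢ K.far p.2 T,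
      ‖P.bg.F.Dw w f (K.ψ x)‖ ≤ C := fun ⟨i, s⟩ => by
    by_cases hK : ∃ K ∈ P.nk i, K.Inf s
    · obtain ⟨K, hK, hs⟩ := hK
      obtain ⟨C, hC⟩ := (h i s K hK hs).bdd w
      obtain ⟨T, -, hT⟩ := nd_basis.eventually_iff.1 hC
      refine ⟨T, C, fun K' hK' _ x hx => ?_⟩
      obtain rfl := Option.mem_unique hK hK'
      rw [Dw_ψ K (K.mem_src.2 hx.2.1)]
      exact hT hx.2.2
    · exact ⟨0, 0, fun K h1 h2 => (hK ⟨K, h1, h2⟩).elim⟩
  choose T C hT using h1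
  obtain ⟨T', hT'⟩ := Finite.exists_le T
  obtain ⟨C', hC'⟩ := Finite.exists_le C
  obtain ⟨C₀, h0⟩ := (hP.cpt T').exists_bound_of_continuousOn (sm_Dw hf w).continuous.continuousOn
  refine ⟨max C₀ C', fun z => ?_⟩
  by_cases hz : z ∈ P.core T'
  · exact (h0 z hz).trans (le_max_left _ _)
  · simp only [Pz.core, mem_ofPred, not_forall, not_not] at hz
    obtain ⟨i, s, K, hK, hs, x, hx, rfl⟩ := hz
    exact (hT (i, s) K hK hs x (far_mono K (hT' _) hx)).trans ((hC' _).trans (le_max_right _ _))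

omit hP in
theorem al_one : P.Al fun _ => 1 :=
  ⟨⟨contMDiff_const, fun _ => norm_one⟩, fun _ _ K _ h => asyG_one K h⟩

omit hP in
theorem al_star (h : P.Al u) : P.Al fun x => star (u x) :=
  ⟨⟨fun x => sa_star (h.1.1 x), fun x => (norm_star _).trans (h.1.2 x)⟩,
    fun i s K hK hs => asyG_star K hs h.1.1 (h.2 i s K hK hs)⟩

theorem al_mul (h : P.Al u) (h' : P.Al u') : P.Al fun x => u' x * u x :=
  ⟨⟨fun x => Wz78.SA.mul (h'.1.1 x) (h.1.1 x), fun x => by rw [norm_mul, h.1.2, h'.1.2, one_mul]⟩,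
    fun i s K hK hs => asyG_mul K (hP.en i) hs h.1.1 h'.1.1 (h.2 i s K hK hs) (h'.2 i s K hK hs)⟩

theorem act_star (hu : Gau X.I u) (c : Cfg X.M κ ν) :
    P.bg.act (fun x => star (u x)) (P.bg.act u c) = c := by
  rw [act_act hP.bg hu ⟨fun x => sa_star (hu.1 x), fun x => (norm_star _).trans (hu.2 x)⟩,
    funext fun x => star_mul_one (hu.2 x), act_one]

theorem eqv_equiv : Equivalence P.Eqv where
  refl c := ⟨_, al_one, (act_one c).symm⟩
  symm := fun ⟨_, hu, h⟩ => ⟨_, al_star hu, h ▸ (act_star hP hu.1 _).symm⟩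
  trans := fun ⟨_, hu, h⟩ ⟨_, hu', h'⟩ =>
    ⟨_, al_mul hP hu hu', by rw [h', h, act_act hP.bg hu.1 hu'.1]⟩

theorem as_act (hβ : P.Cr β) (h : P.As β c) (hu : P.Al u) : P.As β (P.bg.act u c) :=
  ⟨adm_of fun x => (LA.of_adm h.1 x).act hP.bg (hu.1.1 x), fun i s K hK hs =>
    asy_act K (hP.en i) hP.bg hs h.1 (hβ i s ⟨K, hK, hs⟩).1 hu.1 (hu.2 i s K hK hs)
      (h.2 i s K hK hs)⟩

theorem as_cb (hβ : P.Cr β) (h : P.As β c) : (∀ i, P.bg.F.Cb (c.a i)) ∧ P.bg.F.Cb c.Φ := by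
  have h1 := fun i s K hK hs => (asy_iff K hs h.1 (hβ i s ⟨K, hK, hs⟩).1).1 (h.2 i s K hK hs)
  exact ⟨fun j => cb_of_ends hP (h.1.sa j) fun i s K hK hs => gb_of (hP.en i) ((h1 i s K hK hs).1 j)
      (gb_fz ((hβ i s ⟨K, hK, hs⟩).1.sa j) (fz_a _ j)),
    cb_of_ends hP h.1.sΦ fun i s K hK hs => gb_of (hP.en i) (h1 i s K hK hs).2
      (gb_fz (hβ i s ⟨K, hK, hs⟩).1.sΦ fun _ => rfl)⟩

theorem al_cb (h : P.Al u) : P.bg.F.Cb u :=
  cb_of_ends hP h.1.1 fun i s K hK hs => gb_u K (hP.en i) hs h.1.1 (h.2 i s K hK hs)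

omit hP in
variable (κ lam ν) in
/-- **SW-PB** -/
theorem pb : PbStmt κ lam ν where
  loc _ _ _ _ _ _ _ hP q c _ K hK _ _ hp hc h0 := ⟨loc hP.toOK q c hK hp h0, admOn_pb K hc⟩
  cyl := cyl_pt
  act _ _ _ _ _ _ _ hP _ _ hc hu := ⟨adm_of fun x => (LA.of_adm hc x).act hP.bg (hu.1 x),
    fun x => eD_act hP.bg (.of_adm hc x) (.of_gau hu x), p0D_act hP.toOK hc hu,
    funext fun x => fc_act hP.bg (fun i => hc.sa i x) (.of_gau hu x),
    funext fun x => eC_act hP.bg (fun i => hc.sa i x) (.of_gau hu x), p0C_act hP.toOK hc hu,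
    tm_act hc hu, funext fun x => ed_act hP.bg (.of_adm hc x) (.of_gau hu x),
    ean_act hP.toOK hc hu, fun j => (cut_act hP.bg hc hu j).imp fun _ h => ⟨h.1, fun η _ => h.2 η⟩⟩
  loca _ he _ _ _ _ _ _ _ h hu := loca he h hu
  eqv _ _ _ _ _ _ hP _ hβ := ⟨fun _ _ => as_act hP hβ,
    (eqv_equiv hP).comap Subtype.val, fun _ => as_cb hP hβ⟩

end Crest.Agent.X212.Pb50
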